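import Crest.Agent.X262.Fam99.Fs

/-!
# Row 262, G4 / ALG (helper99): the generic fibre of a formal family

* `Tw F Ω`     : an abstract field of Puiseux series;
* `fld`, `pre` : the function field of the generic fibre and its coordinates;
* `hFS`        : formal sections of `O(1)` are algebraic;
* `pic`, `rig` : factorial local rings, rigidity.
-/

set_option autoImplicit false

open PowerSeries Filter

noncomputable section

namespace Crest.Agent.X262.Fam99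

open Crest.Agent.X277 Crest.Agent.X277.Lef Crest.Agent.X277.AN.G1 Crest.Agent.X277.BD
open Crest.Agent.X277.BD.Br (On oP kP At)
open Crest.Agent.X262.Mv99
open Crest.Agent.X262.Alg44
open Crest.Agent.X262.Surf (B2)

/-- an abstract field of Puiseux series -/
structure Tw (F Ω : Type) [Field F] [Algebra ℂ F] [Field Ω] [Algebra ℂ Ω] where
  /-- the reduction -/
  R : Red F Ω
  /-- power series in `t ^ (1 / e)` -/
  ie : (e : ℕ) → e ≠ 0 → F⟦X⟧ →+* Ω
  inj : ∀ e he, Function.Injective (ie e he)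
  exp : ∀ e k (he : e ≠ 0) (hk : k ≠ 0) f,
    ie (e * k) (mul_ne_zero he hk) (expand k hk f) = ie e he f
  /-- constants -/
  th : (e : ℕ) → e ≠ 0 → ℂ⟦X⟧ →+* ℂ
  ie_map : ∀ e he g, ie e he (map (algebraMap ℂ F) g) = algebraMap ℂ Ω (th e he g)
  mem : ∀ e he f, ie e he f ∈ R.O
  r_ie : ∀ e he f, R.r (ie e he f) = constantCoeff f
  lev : ∀ z ∈ R.O, ∃ e he f, ie e he f = z
  levc : ∀ c ∈ R.o, ∃ e he g, th e he g = c

/-- for all sufficiently divisible levels -/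
def Ev (p : (e : ℕ) → e ≠ 0 → Prop) : Prop := ∃ e₀ : ℕ, e₀ ≠ 0 ∧ ∀ e he, e₀ ∣ e → p e he

section Ev

variable {p q : (e : ℕ) → e ≠ 0 → Prop}

theorem Ev.of (h : ∀ e he, p e he) : Ev p := ⟨1, one_ne_zero, fun e he _ => h e he⟩

theorem Ev.mono (h : Ev p) (h' : ∀ e he, p e he → q e he) : Ev q :=
  h.imp fun _ h => ⟨h.1, fun e he hd => h' e he (h.2 e he hd)⟩

theorem Ev.and (h : Ev p) (h' : Ev q) : Ev fun e he => p e he ∧ q e he := by
  obtain ⟨a, ha, h⟩ := h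
  obtain ⟨b, hb, h'⟩ := h'
  exact ⟨a * b, mul_ne_zero ha hb, fun e he hd =>
    ⟨h e he (dvd_of_mul_right_dvd hd), h' e he (dvd_of_mul_left_dvd hd)⟩⟩

theorem Ev.all {ι : Type*} [Fintype ι] {p : ι → (e : ℕ) → e ≠ 0 → Prop} (h : ∀ i, Ev (p i)) :
    Ev fun e he => ∀ i, p i e he := by
  choose a ha h using h
  exact ⟨∏ i, a i, Finset.prod_ne_zero_iff.2 fun i _ => ha i, fun e he hd i =>
    h i e he ((Finset.dvd_prod_of_mem a (Finset.mem_univ i)).trans hd)⟩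

theorem Ev.exists (h : Ev p) : ∃ e he, p e he := h.elim fun e h => ⟨e, h.1, h.2 e h.1 dvd_rfl⟩

theorem Ev.exists_mul (h : Ev p) {e : ℕ} (he : e ≠ 0) :
    ∃ k, ∃ hk : k ≠ 0, p (e * k) (mul_ne_zero he hk) :=
  h.elim fun k h => ⟨k, h.1, h.2 _ _ (dvd_mul_left k e)⟩

end Ev

section Pic

variable {F E : Type} [Field F] [Algebra ℂ F] [Field E] [Algebra ℂ E] {R : Red F E}
  {P : PModel ℂ F} (G : Pre R P)

theorem exists_den (x : Pts P) (f : E) : ∃ d ∈ G.Lo x, d ≠ 0 ∧ f * d ∈ G.Lo x := by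
  obtain ⟨i, hi⟩ := exists_pat x
  have key : ∀ a ∈ chart ℂ G.y 0, ∃ d ∈ G.Lo x, d ≠ 0 ∧ a * d ∈ G.Lo x := by
    intro a ha
    induction ha using Algebra.adjoin_induction with
    | mem a ha =>
      obtain ⟨j, rfl⟩ := ha
      refine ⟨G.y 0 / G.y i, Pre.Ao_le_Lo hi (Red.div_mem_Ao _ _ _),
        div_ne_zero (G.y_ne 0) (G.y_ne i), ?_⟩
      rw [div_mul_div_cancel₀ (G.y_ne 0)]
      exact Pre.Ao_le_Lo hi (Red.div_mem_Ao _ _ _)
    | algebraMap c =>
      by_cases hc : c ∈ R.o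
      · exact ⟨1, one_mem _, one_ne_zero, by
          rw [mul_one]; exact Pre.Ao_le_Lo hi (Red.cst_mem_Ao _ _ hc)⟩
      · have h0 : c ≠ 0 := fun h => hc (h ▸ zero_mem _)
        exact ⟨_, Pre.Ao_le_Lo hi (Red.cst_mem_Ao _ _ (Red.inv_of_not_mem hc).1),
          by simpa using h0, by rw [← map_mul, mul_inv_cancel₀ h0, map_one]; exact one_mem _⟩
    | add a b _ _ ha hb =>
      obtain ⟨c, h1, h2, h3⟩ := ha
      obtain ⟨d, h4, h5, h6⟩ := hb
      refine ⟨c * d, mul_mem h1 h4, mul_ne_zero h2 h5, ?_⟩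
      convert add_mem (mul_mem h3 h4) (mul_mem h6 h1) using 1
      ring
    | mul a b _ _ ha hb =>
      obtain ⟨c, h1, h2, h3⟩ := ha
      obtain ⟨d, h4, h5, h6⟩ := hb
      exact ⟨c * d, mul_mem h1 h4, mul_ne_zero h2 h5, mul_mul_mul_comm a c b d ▸ mul_mem h3 h6⟩
  obtain ⟨a, ha, c, hc, h0, rfl⟩ := G.frac f
  obtain ⟨d, h1, h2, h3⟩ := key a ha
  obtain ⟨d', h4, h5, h6⟩ := key c hc
  refine ⟨c * d' * d, mul_mem h6 h1, mul_ne_zero (mul_ne_zero h0 h5) h2, ?_⟩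
  convert mul_mem h3 h4 using 1
  field_simp

theorem exists_den_fam (x : Pts P) {ι : Type} [Fintype ι] (f : ι → E) :
    ∃ d ∈ G.Lo x, d ≠ 0 ∧ ∀ j, f j * d ∈ G.Lo x := by
  classical
  choose d h1 h2 h3 using fun j => exists_den G x (f j)
  refine ⟨∏ j, d j, prod_mem fun j _ => h1 j, Finset.prod_ne_zero_iff.2 fun j _ => h2 j,
    fun j => ?_⟩
  rw [← Finset.mul_prod_erase _ d (Finset.mem_univ j), ← mul_assoc]
  exact mul_mem (h3 j) (prod_mem fun l _ => h1 l)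

theorem exists_cst_fam {x : Pts P} {ι : Type} [Fintype ι] {f : ι → E} (hf : ∀ j, f j ∈ G.Lk x) :
    ∃ c ∈ R.o, c ≠ 0 ∧ ∀ j, c • f j ∈ G.Lo x := by
  classical
  have : ∀ j, ∃ c ∈ R.o, c ≠ 0 ∧ c • f j ∈ G.Lo x := fun j => by
    obtain ⟨c, h0, h⟩ := hf j
    by_cases hc : c ∈ R.o
    · exact ⟨c, hc, h0, h⟩
    · refine ⟨1, one_mem _, one_ne_zero, ?_⟩
      rw [← inv_mul_cancel₀ h0, mul_smul]
      exact Pre.smul_mem_Lo (Red.inv_of_not_mem hc).1 h
  choose c h1 h2 h3 using this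
  refine ⟨∏ j, c j, prod_mem fun j _ => h1 j, Finset.prod_ne_zero_iff.2 fun j _ => h2 j,
    fun j => ?_⟩
  rw [← Finset.prod_erase_mul _ c (Finset.mem_univ j), mul_smul]
  exact Pre.smul_mem_Lo (prod_mem fun l _ => h1 l) (h3 j)

/-- local rings which are unions of factorial rings -/
theorem pic_of (h : ∀ (x : Pts P) (ι : Type) [Fintype ι] (z : ι → E), (∀ i, z i ∈ G.Lo x) →
    ∃ (A : Type) (_ : CommRing A) (_ : IsDomain A) (_ : UniqueFactorizationMonoid A)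
      (χ : A →+* E), Function.Injective χ ∧ (∀ a, χ a ∈ G.Lo x) ∧ ∀ i, ∃ a, χ a = z i) :
    G.Pic := by
  classical
  intro x n m f g u h1 _ h3
  obtain ⟨d, d1, d2, d3⟩ := exists_den_fam G x f
  obtain ⟨d', d4, d5, d6⟩ := exists_den_fam G x g
  obtain ⟨c, c1, c2, c3⟩ := exists_cst_fam G (f := fun p : Fin n × Fin m => f p.1 * g p.2)
    fun p => h1 p.1 p.2
  obtain ⟨A, _, _, _, χ, hχ, h4, h5⟩ := h x (Fin n ⊕ Fin m ⊕ Fin n × Fin m ⊕ Unit)
    (Sum.elim (fun j => f j * d) (Sum.elim (fun l => c • (g l * d'))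
      (Sum.elim (fun p => c • (f p.1 * g p.2)) fun _ => d * d'))) (by
    rintro (j | l | p | _)
    exacts [d3 j, Pre.smul_mem_Lo c1 (d6 l), c3 p, mul_mem d1 d4])
  choose a ha using fun j => h5 (.inl j)
  choose b hb using fun l => h5 (.inr (.inl l))
  choose w hw using fun p => h5 (.inr (.inr (.inl p)))
  obtain ⟨δ, hδ⟩ := h5 (.inr (.inr (.inr ())))
  simp only [Sum.elim_inl, Sum.elim_inr] at ha hb hw hδ
  let := UniqueFactorizationMonoid.strongNormalizationMonoid (α := A)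
  let := UniqueFactorizationMonoid.toNormalizedGCDMonoid A
  have h6 : χ (Finset.univ.gcd a) ≠ 0 := fun h0 => by
    rw [map_eq_zero_iff χ hχ, Finset.gcd_eq_zero_iff] at h0
    have : ∀ j, f j = 0 := fun j => (mul_eq_zero.1 (by
      rw [← ha, h0 j (Finset.mem_univ j), map_zero])).resolve_right d2
    simp [this] at h3
  refine ⟨χ (Finset.univ.gcd a) / d, div_ne_zero h6 d2, fun j => Pre.Lo_le_Lk ?_,
    fun l => ⟨c, c2, ?_⟩⟩
  · obtain ⟨q, hq⟩ := Finset.gcd_dvd (f := a) (Finset.mem_univ j)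
    rw [div_div_eq_mul_div, ← ha, hq, map_mul, mul_div_cancel_left₀ _ h6]
    exact h4 q
  · obtain ⟨q, hq⟩ : δ ∣ Finset.univ.gcd a * b l :=
      (Finset.dvd_gcd (f := fun j => a j * b l) fun j _ => ⟨w (j, l), hχ (by
        simp only [map_mul, ha, hb, hw, hδ, Algebra.smul_def]
        ring)⟩).trans (Finset.gcd_mul_right' _ _ (b l)).dvd
    have h7 := congrArg χ hq
    rw [map_mul, map_mul, hb, hδ] at h7
    convert h4 q using 1
    rw [Algebra.smul_def] at h7 ⊢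
    field_simp
    refine mul_left_cancel₀ d5 ?_
    linear_combination h7

end Pic

variable {F Ω : Type} [Field F] [Algebra ℂ F] [Field Ω] [Algebra ℂ Ω] {P : PModel ℂ F}
  (W : Tw F Ω) (T : Fam P)

theorem Tw.ie_inv {e : ℕ} {he : e ≠ 0} {f : F⟦X⟧} (hf : constantCoeff f ≠ 0) :
    W.ie e he f⁻¹ = (W.ie e he f)⁻¹ :=
  eq_inv_of_mul_eq_one_right (by rw [← map_mul, PowerSeries.mul_inv_cancel _ hf, map_one])

theorem Tw.exp1 (e : ℕ) (he : e ≠ 0) (f : F⟦X⟧) :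
    W.ie e he (expand e he f) = W.ie 1 one_ne_zero f := by
  have := W.exp 1 e one_ne_zero he f
  simpa only [one_mul] using this

theorem Tw.ev_lev {z : Ω} (hz : z ∈ W.R.O) : Ev fun e he => ∃ f, W.ie e he f = z := by
  obtain ⟨e, he, f, rfl⟩ := W.lev z hz
  refine ⟨e, he, ?_⟩
  rintro _ h ⟨k, rfl⟩
  exact ⟨_, W.exp e k he (right_ne_zero_of_mul h) f⟩

theorem Tw.ev_levc {c : ℂ} (hc : c ∈ W.R.o) :
    Ev fun e he => ∃ g, W.ie e he (map (algebraMap ℂ F) g) = algebraMap ℂ Ω c := by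
  obtain ⟨e, he, g, rfl⟩ := W.levc c hc
  refine ⟨e, he, ?_⟩
  rintro _ h ⟨k, rfl⟩
  exact ⟨expand k (right_ne_zero_of_mul h) g, by rw [map_expand, W.exp e k he, W.ie_map]⟩

theorem Tw.th_mem (e : ℕ) (he : e ≠ 0) (g : ℂ⟦X⟧) : W.th e he g ∈ W.R.o := by
  rw [Red.mem_o, ← W.ie_map]
  exact W.mem _ _ _

/-- the function field of the generic fibre -/
def fld : IntermediateField ℂ Ω :=
  IntermediateField.adjoin ℂ (Set.range fun i => W.ie 1 one_ne_zero (T.yt i))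

/-- the reduction -/
abbrev red : Red F (fld W T) := W.R.comap (fld W T).val

/-- the coordinates -/
def yy (i : Fin (P.N + 1)) : fld W T :=
  ⟨W.ie 1 one_ne_zero (T.yt i), IntermediateField.subset_adjoin _ _ ⟨i, rfl⟩⟩

theorem coe_yy (i : Fin (P.N + 1)) : (yy W T i : Ω) = W.ie 1 one_ne_zero (T.yt i) := rfl

theorem coe_div (i j : Fin (P.N + 1)) :
    ((yy W T j / yy W T i : fld W T) : Ω) = W.ie 1 one_ne_zero (T.yt j * (T.yt i)⁻¹) := by
  rw [map_mul, W.ie_inv (yt_ne T i), ← div_eq_mul_inv]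
  rfl

variable {W T}

theorem adj_Ao {i : Fin (P.N + 1)} {ε : F⟦X⟧ →+* Ω} {g : Fin (P.N + 1) → F⟦X⟧}
    (hε : ∀ c : ℂ⟦X⟧, ∃ κ ∈ W.R.o, ε (map (algebraMap ℂ F) c) = algebraMap ℂ Ω κ)
    (hg : ∀ j, ε (g j) = W.ie 1 one_ne_zero (T.yt j * (T.yt i)⁻¹)) {b : F⟦X⟧}
    (hb : b ∈ Algebra.adjoin ℂ⟦X⟧ (Set.range g)) :
    ∃ z ∈ (red W T).Ao (yy W T) i, (z : Ω) = ε b := by
  induction hb using Algebra.adjoin_induction with
  | mem b hb =>
    obtain ⟨j, rfl⟩ := hb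
    exact ⟨_, Red.div_mem_Ao _ i j, (coe_div W T i j).trans (hg j).symm⟩
  | algebraMap c =>
    obtain ⟨κ, h1, h2⟩ := hε c
    exact ⟨_, Red.cst_mem_Ao _ i (Red.mem_comap_o.2 h1), h2.symm⟩
  | add a b _ _ ha hb =>
    obtain ⟨z, h1, h2⟩ := ha
    obtain ⟨z', h3, h4⟩ := hb
    exact ⟨z + z', add_mem h1 h3, by rw [map_add, ← h2, ← h4]; rfl⟩
  | mul a b _ _ ha hb =>
    obtain ⟨z, h1, h2⟩ := ha
    obtain ⟨z', h3, h4⟩ := hb
    exact ⟨z * z', mul_mem h1 h3, by rw [map_mul, ← h2, ← h4]; rfl⟩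

theorem Bc_Ao {i : Fin (P.N + 1)} {b : F⟦X⟧} (hb : b ∈ Bc T i) :
    ∃ z ∈ (red W T).Ao (yy W T) i, (z : Ω) = W.ie 1 one_ne_zero b :=
  adj_Ao (fun c => ⟨_, W.th_mem _ _ c, W.ie_map _ _ c⟩) (fun _ => rfl) hb

theorem map_chart (i : Fin (P.N + 1)) : (chart ℂ (yy W T) i).map (fld W T).val =
    Algebra.adjoin ℂ (Set.range fun j => W.ie 1 one_ne_zero (T.yt j * (T.yt i)⁻¹)) := by
  rw [chart, AlgHom.map_adjoin, ← Set.range_comp]
  congr 2
  exact funext fun j => coe_div W T i j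

variable (W T) in
/-- the coordinates of the generic fibre -/
def pre (hG : GenSecStmt) : Pre (red W T) P where
  y := yy W T
  y_mem _ := W.mem _ _ _
  y_r i := (W.r_ie _ _ _).trans (T.yt0 i)
  frac f := by
    obtain ⟨a, ha, c, hc, h⟩ := IntermediateField.mem_adjoin_iff_div.1 f.2
    have h1 : Algebra.adjoin ℂ (Set.range fun i => W.ie 1 one_ne_zero (T.yt i)) =
        (chart ℂ (yy W T) 0).map (fld W T).val := by simp [map_chart, T.one]
    rw [h1] at ha hc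
    obtain ⟨a, ha, rfl⟩ := ha
    obtain ⟨c, hc, rfl⟩ := hc
    have h2 : f = a / c := Subtype.ext h
    by_cases h0 : c = 0
    · exact ⟨0, zero_mem _, 1, one_mem _, one_ne_zero, by simp [h2, h0]⟩
    · exact ⟨a, ha, c, hc, h0, h2⟩
  sat i f hf h := by
    obtain ⟨M, ⟨B⟩, h1⟩ := ((exists_basis T hG).and (adj_span (W.ie 1 one_ne_zero)
      (map_chart (W := W) (T := T) i ▸ Subalgebra.mem_map.2 ⟨f, hf, rfl⟩))).exists
    obtain ⟨a, ha⟩ := B.span _ (fun c => ⟨_, W.ie_map _ _ c⟩) h1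
    have h2 := Red.mem_o_of_indep (R := W.R) (fun k => W.mem _ _ (B.b k))
      (by simpa only [W.r_ie] using B.ind) (a := a)
      (ha.symm ▸ W.R.O.mul_mem h (pow_mem (W.mem _ _ _) M))
    choose z h3 h4 using fun k => Bc_Ao (W := W) (B.mem k i)
    have h5 : f = ∑ k, a k • z k := Subtype.ext (by
      have h6 : W.ie 1 one_ne_zero (T.yt i) * W.ie 1 one_ne_zero (T.yt i)⁻¹ = 1 := by
        rw [← map_mul, yt_mul_inv, map_one]
      have h7 := congrArg (· * W.ie 1 one_ne_zero (T.yt i)⁻¹ ^ M) ha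
      simp only [mul_assoc, ← mul_pow, h6, one_pow, mul_one, Finset.sum_mul, smul_mul_assoc] at h7
      simp only [IntermediateField.coe_sum, IntermediateField.coe_smul, h4, map_mul, map_pow]
      exact h7.symm)
    exact h5 ▸ sum_mem fun k _ => Red.smul_mem_Ao (Red.mem_comap_o.2 (h2 k)) (h3 k)

variable {hG : GenSecStmt}

theorem coe_pre (i : Fin (P.N + 1)) :
    (fld W T).val ((pre W T hG).y i) = W.ie 1 one_ne_zero (T.yt i) := rfl

/-- formal sections of `O(1)` are algebraic -/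
theorem hFS (h : (pre W T hG).Sm) {f : F⟦X⟧} (hf : f ∈ T.FS 1) :
    ∃ s ∈ (oP ((pre W T hG).gen h)).Sec, (fld W T).val s = W.ie 1 one_ne_zero f := by
  obtain ⟨M, h1⟩ := eventually_atTop.1 (exists_basis T hG)
  obtain ⟨B⟩ := h1 (1 + M) (Nat.le_add_left _ _)
  have h2 : ∀ i, f * (T.yt i)⁻¹ ∈ Bc T i := fun i => by
    convert B.div_mem (mul_mem_FS hf (pow_mem_FS i M)) i using 1
    rw [pow_add, pow_one, mul_mul_mul_comm, ← mul_pow, yt_mul_inv, one_pow, mul_one]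
  choose z h3 h4 using fun i => Bc_Ao (W := W) (h2 i)
  have h5 : (z 0 : Ω) = W.ie 1 one_ne_zero f := by simp [h4, T.one]
  refine ⟨z 0, Br.mem_Sec_of (P := (pre W T hG).gen h) fun x => ?_, h5⟩
  obtain ⟨i, hi⟩ := exists_pat x
  refine ⟨_, Br.at_y hi, ?_⟩
  have h6 : z 0 / yy W T i = z i := Subtype.ext (by
    rw [h4, map_mul, W.ie_inv (yt_ne T i), ← div_eq_mul_inv, ← h5]
    rfl)
  exact (show z 0 / yy W T i ∈ _ from h6 ▸ A_le hi (Pre.Ao_le_chart (G := pre W T hG) (h3 i)))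

/-! ### the local rings at a finite level -/

section Lvl

variable (T) (x : Pts P) (i : Fin (P.N + 1)) (e : ℕ) (he : e ≠ 0)

/-- base change followed by the trivialisation at `x` -/
def θ : F⟦X⟧ →+* F⟦X⟧ :=
  (lev e he (T.m x)).inv.ψ.comp (expand e he : F⟦X⟧ →ₐ[F] F⟦X⟧).toRingHom

theorem θ_apply (f : F⟦X⟧) : θ T x e he f = (lev e he (T.m x)).inv.ψ (expand e he f) := rfl

theorem θ_const (f : F⟦X⟧) : constantCoeff (θ T x e he f) = constantCoeff f := by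
  rw [θ_apply, Mv.const, constantCoeff_expand]

variable (W) in
/-- the embedding at the level `e` -/
def emb : F⟦X⟧ →+* Ω := (W.ie e he).comp (lev e he (T.m x)).ψ

theorem emb_θ (f : F⟦X⟧) : emb W T x e he (θ T x e he f) = W.ie 1 one_ne_zero f := by
  rw [θ_apply, emb, RingHom.comp_apply, Mv.ψ_inv, W.exp1]

theorem emb_map (c : ℂ⟦X⟧) : emb W T x e he (map (algebraMap ℂ F) c) =
    W.ie e he (map (algebraMap ℂ F) c) := by rw [emb, RingHom.comp_apply, Mv.ψ_map]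

theorem emb_inj : Function.Injective (emb W T x e he) := (W.inj e he).comp (Mv.bij _).1

theorem r_emb (f : F⟦X⟧) : W.R.r (emb W T x e he f) = constantCoeff f :=
  (W.r_ie _ _ _).trans (Mv.const _ f)

/-- the chart ring at the level `e` -/
def Be : Subalgebra ℂ⟦X⟧ F⟦X⟧ :=
  Algebra.adjoin ℂ⟦X⟧ (Set.range fun j => θ T x e he (T.yt j * (T.yt i)⁻¹))

variable {T x i e he}

theorem Be_le (hx : x ∈ pat P i) {b : F⟦X⟧} (hb : b ∈ Be T x i e he) : b ∈ serR (oR x) := by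
  induction hb using Algebra.adjoin_induction with
  | mem b hb =>
    obtain ⟨j, rfl⟩ := hb
    obtain ⟨g, hg, h⟩ := T.mem x i hx j
    have : T.yt j * (T.yt i)⁻¹ = (T.m x).ψ g := by
      rw [h, mul_right_comm, yt_mul_inv, one_mul]
    simp only [this, θ_apply]
    rw [← isLev_lev, Mv.inv_ψ]
    exact expand_mem hg
  | algebraMap c => exact map_mem_serR x c
  | add a b _ _ ha hb => exact add_mem ha hb
  | mul a b _ _ ha hb => exact mul_mem ha hb

theorem θ_map (c : ℂ⟦X⟧) : θ T x e he (map (algebraMap ℂ F) c) =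
    algebraMap ℂ⟦X⟧ F⟦X⟧ (expand e he c) := by
  rw [θ_apply, ← map_expand, Mv.ψ_map]
  rfl

theorem θ_mem {b : F⟦X⟧} (hb : b ∈ Bc T i) : θ T x e he b ∈ Be T x i e he := by
  induction hb using Algebra.adjoin_induction with
  | mem b hb =>
    obtain ⟨j, rfl⟩ := hb
    exact Algebra.subset_adjoin ⟨j, rfl⟩
  | algebraMap c => exact (θ_map (T := T) (x := x) (he := he) c).symm ▸ algebraMap_mem _ _
  | add a b _ _ ha hb => rw [map_add]; exact add_mem ha hb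
  | mul a b _ _ ha hb => rw [map_mul]; exact mul_mem ha hb

theorem Be_sat (hG : GenSecStmt) {f : F⟦X⟧} (hf : X * f ∈ Be T x i e he) :
    f ∈ Be T x i e he := by
  obtain ⟨M, ⟨B⟩, h1⟩ := ((exists_basis T hG).and (adj_span (θ T x e he) hf)).exists
  obtain ⟨a, ha⟩ := B.span _ (fun c => ⟨_, θ_map c⟩) h1
  have h2 := congrArg constantCoeff ha
  simp only [map_sum, Fam6.const_smul, θ_const, map_mul, constantCoeff_X, zero_mul] at h2
  have h3 := Fintype.linearIndependent_iff.1 B.ind _ h2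
  have h4 : f = ∑ k, sh (a k) • θ T x e he (B.b k * (T.yt i)⁻¹ ^ M) := by
    refine mul_left_cancel₀ X_ne_zero ?_
    have h6 : θ T x e he (T.yt i) * θ T x e he (T.yt i)⁻¹ = 1 := by
      rw [← map_mul, yt_mul_inv, map_one]
    have h7 := congrArg (· * θ T x e he (T.yt i)⁻¹ ^ M) ha
    simp only [mul_assoc, ← mul_pow, h6, one_pow, mul_one, Finset.sum_mul, smul_mul_assoc] at h7
    rw [← h7, Finset.mul_sum]
    refine Finset.sum_congr rfl fun k _ => ?_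
    conv_lhs => rw [eq_C_add (a k), h3 k, map_zero, zero_add, mul_smul, Fam6.smul_eq, map_X]
    rw [map_mul, map_pow]
  exact h4 ▸ sum_mem fun k _ => Subalgebra.smul_mem _ (θ_mem (B.mem k i)) _

theorem Be_sur {a : F} (ha : a ∈ P.A i) : ∃ b ∈ Be T x i e he, constantCoeff b = a := by
  induction ha using Algebra.adjoin_induction with
  | mem a ha =>
    obtain ⟨j, rfl⟩ := ha
    exact ⟨_, Algebra.subset_adjoin ⟨j, rfl⟩, by
      simp [θ_const, constantCoeff_inv, T.yt0, div_eq_mul_inv]⟩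
  | algebraMap c => exact ⟨_, algebraMap_mem _ (C c), by simp [algebraMap_apply'']⟩
  | add a b _ _ ha hb =>
    obtain ⟨u, h1, rfl⟩ := ha
    obtain ⟨v, h2, rfl⟩ := hb
    exact ⟨u + v, add_mem h1 h2, map_add _ _ _⟩
  | mul a b _ _ ha hb =>
    obtain ⟨u, h1, rfl⟩ := ha
    obtain ⟨v, h2, rfl⟩ := hb
    exact ⟨u * v, mul_mem h1 h2, map_mul _ _ _⟩

theorem ev_mul_ne {c d : F⟦X⟧} (hc : ev (constantCoeff c) x ≠ 0) (hd : ev (constantCoeff d) x ≠ 0) :
    ev (constantCoeff (c * d)) x ≠ 0 := by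
  rw [map_mul, ev, (lp x).v_mul (LP.mem_of_ne hc) (LP.mem_of_ne hd)]
  exact mul_ne_zero hc hd

variable (T x i e he) in
/-- the local ring at the level `e` -/
def Ae : Subring F⟦X⟧ where
  carrier := {a | ∃ c ∈ Be T x i e he, ev (constantCoeff c) x ≠ 0 ∧ a * c ∈ Be T x i e he}
  zero_mem' := ⟨1, one_mem _, by simp [ev, LP.v_one], by simp⟩
  one_mem' := ⟨1, one_mem _, by simp [ev, LP.v_one], by simp⟩
  add_mem' := by
    rintro a b ⟨c, h1, h2, h3⟩ ⟨d, h4, h5, h6⟩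
    refine ⟨c * d, mul_mem h1 h4, ev_mul_ne h2 h5, ?_⟩
    convert add_mem (mul_mem h3 h4) (mul_mem h6 h1) using 1
    ring
  mul_mem' := by
    rintro a b ⟨c, h1, h2, h3⟩ ⟨d, h4, h5, h6⟩
    exact ⟨c * d, mul_mem h1 h4, ev_mul_ne h2 h5, mul_mul_mul_comm a c b d ▸ mul_mem h3 h6⟩
  neg_mem' := by
    rintro a ⟨c, h1, h2, h3⟩
    exact ⟨c, h1, h2, neg_mul a c ▸ neg_mem h3⟩

theorem Be_le_Ae {b : F⟦X⟧} (hb : b ∈ Be T x i e he) : b ∈ Ae T x i e he :=
  ⟨1, one_mem _, by simp [ev, LP.v_one], by simpa using hb⟩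

theorem div_mem_Ae {b c : F⟦X⟧} (hb : b ∈ Be T x i e he) (hc : c ∈ Be T x i e he)
    (h : ev (constantCoeff c) x ≠ 0) : b * c⁻¹ ∈ Ae T x i e he :=
  ⟨c, hc, h, by rwa [mul_assoc, PowerSeries.inv_mul_cancel _ (LP.ne_zero_of_ne h), mul_one]⟩

theorem Ae_le (hx : x ∈ pat P i) : Ae T x i e he ≤ serR (oR x) := by
  rintro a ⟨c, h1, h2, h3⟩
  obtain ⟨g, hg, h4⟩ := exists_inv_serR (Be_le hx h1) ((lp x).inv_mem h2)
    (mul_inv_cancel₀ (LP.ne_zero_of_ne h2))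
  have := mul_mem (Be_le hx h3) hg
  rwa [mul_assoc, h4, mul_one] at this

theorem Ae_noeth : IsNoetherianRing (Ae T x i e he) := by
  let S : Submonoid (Be T x i e he) :=
    { carrier := {c | ev (constantCoeff (c : F⟦X⟧)) x ≠ 0}
      one_mem' := by simp [ev, LP.v_one]
      mul_mem' := fun ha hb => ev_mul_ne ha hb }
  let : Algebra (Be T x i e he) (Ae T x i e he) := (Subring.inclusion (S := (Be T x i e he).toSubring)
    fun _ => Be_le_Ae).toAlgebra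
  have : IsLocalization S (Ae T x i e he) :=
    { map_units := fun c => IsUnit.of_mul_eq_one ⟨_, div_mem_Ae (one_mem _) c.1.2 c.2⟩
        (Subtype.ext (by
          change (c : F⟦X⟧) * (1 * (c : F⟦X⟧)⁻¹) = 1
          rw [one_mul, PowerSeries.mul_inv_cancel _ (LP.ne_zero_of_ne c.2)]))
      surj := fun ⟨a, c, h1, h2, h3⟩ => ⟨(⟨_, h3⟩, ⟨⟨c, h1⟩, h2⟩), rfl⟩
      exists_of_eq := fun {a b} h => ⟨1, by
        rw [show a = b from Subtype.ext (congrArg (fun z : Ae T x i e he => (z : F⟦X⟧)) h)]⟩ }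
  exact IsLocalization.isNoetherianRing S _ (isNoetherianRing_of_fg
    (Subalgebra.fg_def.2 ⟨_, Set.finite_range _, rfl⟩))

theorem Ae_ufd (hG : GenSecStmt) (hU : UfdStmt) (b : B2 F) (hx : x ∈ pat P i) :
    UniqueFactorizationMonoid (Ae T x i e he) := by
  refine hU F P b x _ (Ae_le hx) Ae_noeth (Be_le_Ae ?_) (fun c => Be_le_Ae ?_) ?_ ?_ ?_
  · simpa [algebraMap_apply''] using (Be T x i e he).algebraMap_mem X
  · simpa [algebraMap_apply''] using (Be T x i e he).algebraMap_mem (C c)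
  · rintro f ⟨c, h1, h2, h3⟩
    exact ⟨c, h1, h2, Be_sat hG (mul_assoc X f c ▸ h3)⟩
  · intro a ha
    obtain ⟨u, hu, c, hc, h1, h2⟩ := (mem_lp_iff hx).1 ha
    obtain ⟨u, h3, rfl⟩ := Be_sur (T := T) (x := x) (he := he) hu
    obtain ⟨c, h4, rfl⟩ := Be_sur (T := T) (x := x) (he := he) hc
    exact ⟨_, div_mem_Ae h3 h4 h1, by
      rw [map_mul, constantCoeff_inv, ← h2, mul_inv_cancel_right₀ (LP.ne_zero_of_ne h1)]⟩
  · rintro f ⟨c, h1, h2, h3⟩ h
    refine ⟨_, div_mem_Ae h1 h3 (ev_mul_ne h h2), ?_⟩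
    rw [← mul_assoc, PowerSeries.mul_inv_cancel _ (LP.ne_zero_of_ne (ev_mul_ne h h2))]

theorem Be_Ao {b : F⟦X⟧} (hb : b ∈ Be T x i e he) :
    ∃ z ∈ (red W T).Ao (yy W T) i, (z : Ω) = emb W T x e he b :=
  adj_Ao (fun c => ⟨_, W.th_mem e he c, (emb_map T x e he c).trans (W.ie_map _ _ c)⟩)
    (fun _ => emb_θ T x e he _) hb

theorem Ae_Lo (hx : x ∈ pat P i) {a : F⟦X⟧} (ha : a ∈ Ae T x i e he) :
    ∃ z ∈ (pre W T hG).Lo x, (z : Ω) = emb W T x e he a := by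
  obtain ⟨c, h1, h2, h3⟩ := ha
  obtain ⟨z, h4, h5⟩ := Be_Ao (W := W) h1
  obtain ⟨z', h6, h7⟩ := Be_Ao (W := W) h3
  have h8 : (red W T).r z = constantCoeff c := (congrArg W.R.r h5).trans (r_emb T x e he c)
  have h9 : (z : Ω) ≠ 0 := Red.ne_zero (R := W.R) fun h => LP.ne_zero_of_ne h2 (h8.symm.trans h)
  refine ⟨z' / z, Pre.div_mem_Lo (Pre.Ao_le_Lo hx h6) (Pre.Ao_le_Lo hx h4) (h8 ▸ h2), ?_⟩
  rw [IntermediateField.coe_div, h7, map_mul, ← h5, mul_div_cancel_right₀ _ h9]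

end Lvl

variable {x : Pts P} {i : Fin (P.N + 1)}

theorem ev_Ao {z : fld W T} (hz : z ∈ (red W T).Ao (yy W T) i) :
    Ev fun e he => ∃ b ∈ Be T x i e he, emb W T x e he b = z := by
  induction hz using Subring.closure_induction with
  | mem z hz =>
    rcases hz with ⟨c, hc, rfl⟩ | ⟨j, rfl⟩
    · exact (W.ev_levc (Red.mem_comap_o.1 hc)).mono fun e he ⟨g, hg⟩ =>
        ⟨_, algebraMap_mem _ g, (emb_map T x e he g).trans hg⟩
    · exact Ev.of fun e he => ⟨_, Algebra.subset_adjoin ⟨j, rfl⟩,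
        (emb_θ T x e he _).trans (coe_div W T i j).symm⟩
  | zero => exact Ev.of fun e he => ⟨0, zero_mem _, map_zero _⟩
  | one => exact Ev.of fun e he => ⟨1, one_mem _, map_one _⟩
  | add f g _ _ hf hg => exact (hf.and hg).mono fun e he ⟨⟨a, h1, h2⟩, b, h3, h4⟩ =>
      ⟨a + b, add_mem h1 h3, by rw [map_add, h2, h4]; rfl⟩
  | neg f _ hf => exact hf.mono fun e he ⟨a, h1, h2⟩ =>
      ⟨-a, neg_mem h1, by rw [map_neg, h2]; rfl⟩
  | mul f g _ _ hf hg => exact (hf.and hg).mono fun e he ⟨⟨a, h1, h2⟩, b, h3, h4⟩ =>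
      ⟨a * b, mul_mem h1 h3, by rw [map_mul, h2, h4]; rfl⟩

theorem ev_Lo (hx : x ∈ pat P i) {z : fld W T} (hz : z ∈ (pre W T hG).Lo x) :
    Ev fun e he => ∃ a ∈ Ae T x i e he, emb W T x e he a = z := by
  obtain ⟨u, hu, c, hc, h0, h1⟩ := (Pre.mem_Lo_iff hx).1 hz
  refine ((ev_Ao (x := x) hu).and (ev_Ao (x := x) hc)).mono fun e he ⟨⟨a, h2, h3⟩, b, h4, h5⟩ => ?_
  have h6 : (red W T).r c = constantCoeff b := (congrArg W.R.r h5.symm).trans (r_emb T x e he b)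
  rw [h6] at h0
  refine ⟨_, div_mem_Ae h2 h4 h0, ?_⟩
  have h7 := congrArg (emb W T x e he) (PowerSeries.mul_inv_cancel _ (LP.ne_zero_of_ne h0))
  rw [map_mul, map_one, h5] at h7
  rw [map_mul, h3, ← h1, IntermediateField.coe_mul, mul_assoc, h7, mul_one]

/-- **invertible ideals are principal** -/
theorem pic (hU : UfdStmt) (b : B2 F) : (pre W T hG).Pic := pic_of _ fun x ι _ z hz => by
  obtain ⟨i, hi⟩ := exists_pat x
  obtain ⟨e, he, h⟩ := (Ev.all fun j => ev_Lo hi (hz j)).exists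
  have h1 : ∀ a : Ae T x i e he, emb W T x e he a ∈ fld W T := fun a => by
    obtain ⟨u, -, hu⟩ := Ae_Lo (W := W) (hG := hG) hi a.2
    exact hu ▸ u.2
  refine ⟨Ae T x i e he, inferInstance, inferInstance, Ae_ufd hG hU b hi,
    ((emb W T x e he).comp (Ae T x i e he).subtype).codRestrict (fld W T) h1,
    fun a a' h2 => Subtype.ext (emb_inj T x e he (congrArg Subtype.val h2)), fun a => ?_,
    fun j => ?_⟩
  · obtain ⟨u, h2, hu⟩ := Ae_Lo (W := W) (hG := hG) hi a.2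
    obtain rfl : u = ⟨_, h1 a⟩ := Subtype.ext hu
    exact h2
  · obtain ⟨a, h2, h3⟩ := h j
    exact ⟨⟨a, h2⟩, Subtype.ext h3⟩

theorem lev_mul {k L : Type} [CommRing k] [CommRing L] [Algebra k L] {e a : ℕ} (he : e ≠ 0)
    (ha : a ≠ 0) (m : Mv k L) :
    IsLev a ha (lev e he m) (lev (e * a) (mul_ne_zero he ha) m) := by
  intro f
  rw [isLev_lev a ha (lev e he m) f |>.symm]
  refine hom_ext (Mv.ψX _) (Mv.ψX _) (fun c => ?_) _
  rw [lev_C, lev_C, lev_C, ← expand_mul]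
  simp only [mul_comm]

/-- **rigidity** -/
theorem rig [Algebra.EssFiniteType ℂ F] (hT : T.Rigid) : (pre W T hG).Rig := by
  intro n σ h1 h2 h3
  obtain ⟨e, he, h4⟩ := (Ev.all fun j => W.ev_lev (h1 j)).exists
  choose s hs using h4
  have h5 : ∀ j, (red W T).r (σ j) = constantCoeff (s j) := fun j =>
    (congrArg W.R.r (hs j).symm).trans (W.r_ie _ _ _)
  simp only [h5] at h2 ⊢
  refine hT e he _ (fun x => isLev_lev e he _) n s h2 fun x => (h3 x).imp fun j hj l => ?_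
  obtain ⟨i, hi⟩ := exists_pat x
  obtain ⟨k, hk, a, h6, h7⟩ := (ev_Lo hi (hj l)).exists_mul he
  have h8 : a = expand k hk ((lev e he (T.m x)).inv.ψ (s l * (s j)⁻¹)) := emb_inj T x _ _ (by
    rw [h7, emb, RingHom.comp_apply, lev_mul he hk, Mv.ψ_inv, W.exp e k he, map_mul, W.ie_inv (h2 j),
      hs, hs, ← div_eq_mul_inv]
    rfl)
  refine ⟨(lev e he (T.m x)).inv.ψ (s l * (s j)⁻¹), fun d => ?_, ?_⟩
  · have := Ae_le hi h6 (k * d)
    rwa [h8, coeff_expand_mul] at this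
  · rw [Mv.ψ_inv, mul_left_comm, PowerSeries.mul_inv_cancel _ (h2 j), mul_one]

end Crest.Agent.X262.Fam99
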