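import Crest.Agent.X262.Fam99.Rgd
import Crest.Agent.X262.Fam6.Rem
import Crest.Agent.X262.Alg44.Basic

/-!
# Row 262, G4 / ALG (helper99): formal sections of a family are forms

* `FSm T M`      : the module of formal sections;
* `Bc T i`       : the chart ring of the family;
* `exists_basis` : for large `M` formal sections are generated by forms with independent reductions;
* `adj_span`     : homogenisation after any homomorphism.
-/

set_option autoImplicit false

open PowerSeries Filter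

noncomputable section

namespace Crest.Agent.X262.Fam99

open Crest.Agent.X277 Crest.Agent.X277.Lef Crest.Agent.X277.AN.G1 Crest.Agent.X277.BD
open Crest.Agent.X277.BD.Br (On oP kP At)
open Crest.Agent.X262.Mv99
open Crest.Agent.X262.Alg44

theorem aeval_mem {K A σ : Type*} [CommRing K] [CommRing A] [Algebra K A] {y : σ → A}
    (W : ℕ → Submodule K A) (h0 : (1 : A) ∈ W 0) (h1 : ∀ j M, ∀ z ∈ W M, y j * z ∈ W (M + 1))
    {M : ℕ} {p : MvPolynomial σ K} (hp : p.IsHomogeneous M) : MvPolynomial.aeval y p ∈ W M := by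
  have h2 : p ∈ MvPolynomial.homogeneousSubmodule σ K 1 ^ M := by
    rwa [MvPolynomial.homogeneousSubmodule_one_pow]
  clear hp
  induction h2 using Submodule.pow_induction_on_left' with
  | algebraMap r =>
    rw [AlgHom.commutes, Algebra.algebraMap_eq_smul_one]
    exact (W 0).smul_mem r h0
  | add x y i _ _ hx hy => rw [map_add]; exact add_mem hx hy
  | mem_mul m hm i x _ hx =>
    rw [MvPolynomial.homogeneousSubmodule_one_eq_span_X] at hm
    induction hm using Submodule.span_induction with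
    | mem m hm =>
      obtain ⟨j, rfl⟩ := hm
      rw [map_mul, MvPolynomial.aeval_X]
      exact h1 j i _ hx
    | zero => simp
    | add a b _ _ ha hb => rw [add_mul, map_add]; exact add_mem ha hb
    | smul c a _ ha => rw [smul_mul_assoc, map_smul]; exact Submodule.smul_mem _ c ha

variable {F : Type} [Field F] [Algebra ℂ F] {P : PModel ℂ F} (T : Fam P)

instance tower : IsScalarTower ℂ ℂ⟦X⟧ F⟦X⟧ := IsScalarTower.of_algebraMap_eq fun c => by
  rw [PowerSeries.algebraMap_apply'', PowerSeries.algebraMap_apply, PowerSeries.algebraMap_apply,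
    map_C]
  rfl

theorem map_mem_serR (x : Pts P) (c : ℂ⟦X⟧) : map (algebraMap ℂ F) c ∈ serR (oR x) := fun n => by
  rw [coeff_map]
  exact algebraMap_mem (lp x).O _

/-- the module of formal sections -/
def FSm (M : ℕ) : Submodule ℂ⟦X⟧ F⟦X⟧ where
  carrier := T.FS M
  zero_mem' x i _ := ⟨0, zero_mem _, by simp⟩
  add_mem' hf hg x i hx := by
    obtain ⟨a, ha, rfl⟩ := hf x i hx
    obtain ⟨b, hb, rfl⟩ := hg x i hx
    exact ⟨a + b, add_mem ha hb, by rw [map_add, mul_add]⟩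
  smul_mem' c f hf x i hx := by
    obtain ⟨a, ha, rfl⟩ := hf x i hx
    exact ⟨_, mul_mem (map_mem_serR x c) ha, by
      rw [Fam6.smul_eq, map_mul, Mv.ψ_map, mul_left_comm]⟩

theorem yt_ne (i : Fin (P.N + 1)) : constantCoeff (T.yt i) ≠ 0 := T.yt0 i ▸ P.y_ne i

theorem yt_mul_inv (i : Fin (P.N + 1)) : T.yt i * (T.yt i)⁻¹ = 1 :=
  PowerSeries.mul_inv_cancel _ (yt_ne T i)

theorem one_mem_FS : (1 : F⟦X⟧) ∈ T.FS 0 := fun _ _ _ => ⟨1, one_mem _, by simp⟩

theorem yt_mem_FS (j : Fin (P.N + 1)) : T.yt j ∈ T.FS 1 := fun x i hx => by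
  simpa using T.mem x i hx j

variable {T}

theorem mul_mem_FS {M M' : ℕ} {f g : F⟦X⟧} (hf : f ∈ T.FS M) (hg : g ∈ T.FS M') :
    f * g ∈ T.FS (M + M') := fun x i hx => by
  obtain ⟨a, ha, rfl⟩ := hf x i hx
  obtain ⟨b, hb, rfl⟩ := hg x i hx
  exact ⟨a * b, mul_mem ha hb, by rw [map_mul, pow_add]; ring⟩

theorem pow_mem_FS (j : Fin (P.N + 1)) (M : ℕ) : T.yt j ^ M ∈ T.FS M := by
  induction M with
  | zero => simpa using one_mem_FS T
  | succ n ih => rw [pow_succ]; exact mul_mem_FS ih (yt_mem_FS T j)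

theorem sat_FS {M : ℕ} {f : F⟦X⟧} (hf : X * f ∈ T.FS M) : f ∈ T.FS M := fun x i hx => by
  obtain ⟨a, ha, e⟩ := hf x i hx
  have h1 := congrArg constantCoeff e
  simp only [map_mul, constantCoeff_X, zero_mul, map_pow, Mv.const] at h1
  have h2 := (mul_eq_zero.1 h1.symm).resolve_left (pow_ne_zero _ (yt_ne T i))
  refine ⟨sh a, sh_mem (M := (oR x).toAddSubgroup) ha, mul_left_cancel₀ X_ne_zero ?_⟩
  rw [e]
  conv_lhs => rw [eq_C_add a, h2]
  simp only [map_zero, zero_add, map_mul, Mv.ψX]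
  ring

theorem const_mem_Sec {M : ℕ} {f : F⟦X⟧} (hf : f ∈ T.FS M) :
    constantCoeff f ∈ (M • oP P).Sec := Br.mem_Sec_of fun x => by
  obtain ⟨i, hi⟩ := exists_pat x
  obtain ⟨a, ha, rfl⟩ := hf x i hi
  refine ⟨_, (Br.at_y hi).nsmul M, ?_⟩
  rw [map_mul, map_pow, T.yt0, Mv.const, mul_div_cancel_left₀ _ (pow_ne_zero _ (P.y_ne i))]
  exact const_mem (M := (oR x).toAddSubgroup) ha

variable (T)

/-- the chart ring of the family -/
def Bc (i : Fin (P.N + 1)) : Subalgebra ℂ⟦X⟧ F⟦X⟧ :=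
  Algebra.adjoin ℂ⟦X⟧ (Set.range fun j => T.yt j * (T.yt i)⁻¹)

theorem const_aeval (p : MvPolynomial (Fin (P.N + 1)) ℂ) :
    constantCoeff (MvPolynomial.aeval T.yt p) = MvPolynomial.aeval P.y p := by
  induction p using MvPolynomial.induction_on with
  | C c => simp [PowerSeries.algebraMap_apply]
  | add p q hp hq => simp only [map_add, hp, hq]
  | mul_X p j hp => simp only [map_mul, hp, MvPolynomial.aeval_X, T.yt0]

theorem aeval_spec {M : ℕ} {p : MvPolynomial (Fin (P.N + 1)) ℂ} (hp : p.IsHomogeneous M) :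
    MvPolynomial.aeval T.yt p ∈ T.FS M ∧
      ∀ i, MvPolynomial.aeval T.yt p * (T.yt i)⁻¹ ^ M ∈ Bc T i := by
  refine ⟨aeval_mem (fun M => (FSm T M).restrictScalars ℂ) (one_mem_FS T)
    (fun j M z hz => add_comm 1 M ▸ mul_mem_FS (yt_mem_FS T j) hz) hp, fun i => ?_⟩
  refine aeval_mem (fun M => ((Bc T i).toSubmodule.restrictScalars ℂ).comap
    (LinearMap.mulRight ℂ ((T.yt i)⁻¹ ^ M))) (by simp [one_mem]) (fun j M z hz => ?_) hp
  have := (Bc T i).mul_mem (Algebra.subset_adjoin ⟨j, rfl⟩) hz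
  change _ ∈ Bc T i
  convert this using 1
  simp only [LinearMap.mulRight_apply]
  ring

/-- a good basis of the formal sections -/
structure GB (M : ℕ) where
  /-- the rank -/
  h : ℕ
  /-- the basis -/
  b : Fin h → F⟦X⟧
  ind : LinearIndependent ℂ fun k => constantCoeff (b k)
  mem : ∀ k i, b k * (T.yt i)⁻¹ ^ M ∈ Bc T i
  gen : ∀ f ∈ T.FS M, ∃ c : Fin h → ℂ⟦X⟧, f = ∑ k, c k • b k

/-- **formal sections are forms** -/
theorem exists_basis (hG : GenSecStmt) : ∀ᶠ M in atTop, Nonempty (GB T M) := by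
  obtain ⟨M0, h⟩ := hG F P Unit (fun _ => 1) ⟨(), one_ne_zero⟩
    (Br.mxf_mem fun x => ⟨(), one_ne_zero, fun _ => by simp⟩)
  refine eventually_atTop.2 ⟨M0, fun M hM => ?_⟩
  let V := (MvPolynomial.homogeneousSubmodule (Fin (P.N + 1)) ℂ M).map
    (MvPolynomial.aeval P.y).toLinearMap
  have : Module.Finite ℂ (MvPolynomial.homogeneousSubmodule (Fin (P.N + 1)) ℂ M) :=
    Module.Finite.iff_fg.2 (MvPolynomial.homogeneousSubmodule_fg _ _ _)
  let v := Module.finBasis ℂ V
  choose β h1 h2 using fun k => (v k).2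
  have h3 : (fun k => constantCoeff (MvPolynomial.aeval T.yt (β k))) = fun k => (v k : F) :=
    funext fun k => (const_aeval T _).trans (h2 k)
  refine ⟨⟨_, fun k => MvPolynomial.aeval T.yt (β k), ?_, fun k => (aeval_spec T (h1 k)).2,
    fun f hf => Fam6.mem_span_adic (W := FSm T M) (fun _ => sat_FS)
      (fun k => (aeval_spec T (h1 k)).1) (fun g hg => ?_) hf⟩⟩
  · rw [h3]
    exact v.linearIndependent.map' V.subtype V.ker_subtype
  · obtain ⟨p, h4, h5⟩ := h M hM (1 * constantCoeff g)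
      (mul_mem_Sec (mem_Sec_mxf (fun _ : Unit => (1 : F)) ()) (const_mem_Sec hg))
    have h6 : constantCoeff g ∈ V := ⟨p (), h4 (), by simpa using h5.symm⟩
    have h7 := Submodule.mem_map_of_mem (f := V.subtype) (v.mem_span ⟨_, h6⟩)
    rw [Submodule.map_span, ← Set.range_comp] at h7
    rw [h3]
    exact h7

variable {T}

theorem GB.div_mem {M : ℕ} (B : GB T M) {f : F⟦X⟧} (hf : f ∈ T.FS M) (i : Fin (P.N + 1)) :
    f * (T.yt i)⁻¹ ^ M ∈ Bc T i := by
  obtain ⟨c, rfl⟩ := B.gen f hf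
  rw [Finset.sum_mul]
  exact sum_mem fun k _ => by rw [smul_mul_assoc]; exact Subalgebra.smul_mem _ (B.mem k i) _

section Adj

variable {K A : Type*} [CommRing K] [CommRing A] [Algebra K A] (φ : F⟦X⟧ →+* A)

/-- homogenisation -/
theorem adj_span {i : Fin (P.N + 1)} {f : A}
    (hf : f ∈ Algebra.adjoin K (Set.range fun j => φ (T.yt j * (T.yt i)⁻¹))) :
    ∀ᶠ M in atTop, f * φ (T.yt i) ^ M ∈ Submodule.span K (φ '' T.FS M) := by
  induction hf using Algebra.adjoin_induction with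
  | mem f hf =>
    obtain ⟨j, rfl⟩ := hf
    refine eventually_atTop.2 ⟨1, fun M hM => Submodule.subset_span ?_⟩
    obtain ⟨n, rfl⟩ := Nat.exists_eq_add_of_le hM
    refine ⟨_, mul_mem_FS (yt_mem_FS T j) (pow_mem_FS i n), ?_⟩
    rw [← map_pow, ← map_mul]
    congr 1
    linear_combination -(T.yt j * T.yt i ^ n) * yt_mul_inv T i
  | algebraMap c =>
    refine Eventually.of_forall fun M => ?_
    rw [← Algebra.smul_def]
    exact Submodule.smul_mem _ _ (Submodule.subset_span ⟨_, pow_mem_FS i M, map_pow _ _ _⟩)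
  | add f g _ _ hf hg =>
    filter_upwards [hf, hg] with M h1 h2
    rw [add_mul]
    exact add_mem h1 h2
  | mul f g _ _ hf hg =>
    obtain ⟨a, ha⟩ := eventually_atTop.1 hf
    obtain ⟨b, hb⟩ := eventually_atTop.1 hg
    refine eventually_atTop.2 ⟨a + b, fun M hM => ?_⟩
    obtain ⟨n, rfl⟩ := Nat.exists_eq_add_of_le hM
    have h1 := Submodule.mul_mem_mul (ha a le_rfl) (hb (b + n) (Nat.le_add_right _ _))
    rw [Submodule.span_mul_span, mul_mul_mul_comm, ← pow_add, ← add_assoc] at h1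
    refine Submodule.span_mono ?_ h1
    rintro _ ⟨_, ⟨u, hu, rfl⟩, _, ⟨v, hv, rfl⟩, rfl⟩
    exact ⟨u * v, add_assoc a b n ▸ mul_mem_FS hu hv, map_mul _ _ _⟩

theorem GB.span {M : ℕ} (B : GB T M)
    (hφ : ∀ c : ℂ⟦X⟧, ∃ κ : K, φ (map (algebraMap ℂ F) c) = algebraMap K A κ) {z : A}
    (hz : z ∈ Submodule.span K (φ '' T.FS M)) : ∃ a : Fin B.h → K, ∑ k, a k • φ (B.b k) = z := by
  rw [← Submodule.mem_span_range_iff_exists_fun]
  refine Submodule.span_le.2 ?_ hz
  rintro _ ⟨f, hf, rfl⟩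
  obtain ⟨c, rfl⟩ := B.gen f hf
  rw [map_sum]
  refine sum_mem fun k _ => ?_
  obtain ⟨κ, h⟩ := hφ (c k)
  rw [Fam6.smul_eq, map_mul, h, ← Algebra.smul_def]
  exact Submodule.smul_mem _ _ (Submodule.subset_span ⟨k, rfl⟩)

end Adj

end Crest.Agent.X262.Fam99
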